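import Vale.Agent.P122.S590.G1

/-! # P122 / S590 : geometry of an elliptic graph -/

open Set
open scoped ContDiff

set_option autoImplicit false

namespace Vale.Agent.P122.S590

/-- gradient -/
noncomputable def gd (h : (Fin 2 → ℝ) → ℝ) (ξ : Fin 2 → ℝ) : Fin 2 → ℝ := fun i => fderiv ℝ h ξ (Pi.single i 1)

theorem vec_eq (w : Fin 2 → ℝ) : w = w 0 • (Pi.single 0 1 : Fin 2 → ℝ) + w 1 • (Pi.single 1 1 : Fin 2 → ℝ) := by
  ext i; fin_cases i <;> simp

theorem abs_coord_le (w : Fin 2 → ℝ) (i : Fin 2) : |w i| ≤ ‖w‖ := by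
  simpa using norm_le_pi_norm w i

theorem norm_le_of_coord (w : Fin 2 → ℝ) {r : ℝ} (h0 : |w 0| ≤ r) (h1 : |w 1| ≤ r) : ‖w‖ ≤ r := by
  rw [pi_norm_le_iff_of_nonneg ((abs_nonneg _).trans h0)]
  intro i; fin_cases i
  · simpa using h0
  · simpa using h1

theorem norm_single_one (i : Fin 2) : ‖(Pi.single i (1:ℝ) : Fin 2 → ℝ)‖ = 1 := by
  rw [Pi.norm_single]; simp

/-- the covector `ψ` dual to the direction `φ` -/
theorem exists_psi {a b b' d c C : ℝ} {σ : ℝ} (hσ : σ = 1 ∨ σ = -1) (hc : 0 < c) (hC : 0 < C)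
    (hell : ∀ w : Fin 2 → ℝ, c * ‖w‖ ^ 2 ≤ σ * (w 0 * (a * w 0 + b * w 1) + w 1 * (b' * w 0 + d * w 1)))
    (ha : |a| ≤ C) (hb : |b| ≤ C) (hb' : |b'| ≤ C) (hd : |d| ≤ C) (θ : ℝ) :
    ∃ ψ : Fin 2 → ℝ, ψ 0 * a + ψ 1 * b' = Real.cos θ ∧ ψ 0 * b + ψ 1 * d = Real.sin θ ∧
      |ψ 0| ≤ 2 / c ∧ |ψ 1| ≤ 2 / c ∧ c * (1 / (4 * C)) ^ 2 ≤ σ * (Real.cos θ * ψ 0 + Real.sin θ * ψ 1) := by
  have h1 := hell ![1, 0]
  have h1n : ‖(![1, 0] : Fin 2 → ℝ)‖ = 1 := by
    apply le_antisymm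
    · apply norm_le_of_coord <;> simp
    · simpa using abs_coord_le ![1, 0] 0
  rw [h1n] at h1
  simp only [Matrix.cons_val_zero, Matrix.cons_val_one, mul_one, mul_zero, add_zero, one_pow, one_mul, zero_mul] at h1
  have hw := hell ![b, -a]
  simp only [Matrix.cons_val_zero, Matrix.cons_val_one] at hw
  have hdet : 0 < a * d - b * b' := by
    have e : σ * (b * (a * b + b * -a) + -a * (b' * b + d * -a)) = σ * a * (a * d - b * b') := by ring
    rw [e] at hw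
    have hna : c ≤ ‖(![b, -a] : Fin 2 → ℝ)‖ := by
      have hthis : |-a| ≤ ‖(![b, -a] : Fin 2 → ℝ)‖ := abs_coord_le ![b, -a] 1
      rw [abs_neg] at hthis
      have h2 : σ * a ≤ |a| := by
        rcases hσ with rfl | rfl
        · simpa using le_abs_self a
        · simpa using neg_le_abs a
      linarith
    have h3 : 0 < c * ‖(![b, -a] : Fin 2 → ℝ)‖ ^ 2 := mul_pos hc (pow_pos (hc.trans_le hna) 2)
    have h4 : 0 < σ * a * (a * d - b * b') := lt_of_lt_of_le h3 hw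
    have h5 : 0 < σ * a := by linarith
    exact (pos_iff_pos_of_mul_pos h4).1 h5
  have hdne : a * d - b * b' ≠ 0 := hdet.ne'
  let ψ : Fin 2 → ℝ := ![(Real.cos θ * d - Real.sin θ * b') / (a * d - b * b'), (Real.sin θ * a - Real.cos θ * b) / (a * d - b * b')]
  have hψ0 : ψ 0 = (Real.cos θ * d - Real.sin θ * b') / (a * d - b * b') := rfl
  have hψ1 : ψ 1 = (Real.sin θ * a - Real.cos θ * b) / (a * d - b * b') := rfl
  have e0 : ψ 0 * a + ψ 1 * b' = Real.cos θ := by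
    rw [hψ0, hψ1, div_mul_eq_mul_div, div_mul_eq_mul_div, ← add_div, div_eq_iff hdne]; ring
  have e1 : ψ 0 * b + ψ 1 * d = Real.sin θ := by
    rw [hψ0, hψ1, div_mul_eq_mul_div, div_mul_eq_mul_div, ← add_div, div_eq_iff hdne]; ring
  clear_value ψ
  have hq := hell ψ
  have eq : ψ 0 * (a * ψ 0 + b * ψ 1) + ψ 1 * (b' * ψ 0 + d * ψ 1) = Real.cos θ * ψ 0 + Real.sin θ * ψ 1 := by
    rw [← e0, ← e1]; ring
  rw [eq] at hq
  have hn0 := abs_coord_le ψ 0
  have hn1 := abs_coord_le ψ 1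
  have hup : ‖ψ‖ ≤ 2 / c := by
    have h6 : σ * (Real.cos θ * ψ 0 + Real.sin θ * ψ 1) ≤ 2 * ‖ψ‖ := by
      have h7 : |σ * (Real.cos θ * ψ 0 + Real.sin θ * ψ 1)| ≤ 2 * ‖ψ‖ := by
        rw [abs_mul]
        have : |σ| = 1 := by rcases hσ with rfl | rfl <;> simp
        rw [this, one_mul]
        refine (abs_add_le _ _).trans ?_
        rw [abs_mul, abs_mul]
        have m0 := mul_le_mul (Real.abs_cos_le_one θ) hn0 (abs_nonneg _) zero_le_one
        have m1 := mul_le_mul (Real.abs_sin_le_one θ) hn1 (abs_nonneg _) zero_le_one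
        linarith
      exact (le_abs_self _).trans h7
    rcases (norm_nonneg ψ).eq_or_lt with h0 | h0
    · rw [← h0]; positivity
    · rw [le_div_iff₀ hc]
      have h7 : c * ‖ψ‖ ^ 2 ≤ 2 * ‖ψ‖ := hq.trans h6
      have h8 : (‖ψ‖ * c) * ‖ψ‖ ≤ 2 * ‖ψ‖ := by linarith [h7]
      exact le_of_mul_le_mul_right h8 h0
  have hlo : 1 / (4 * C) ≤ ‖ψ‖ := by
    rw [div_le_iff₀ (by positivity)]
    have h8 : (1:ℝ) = Real.cos θ ^ 2 + Real.sin θ ^ 2 := by rw [Real.cos_sq_add_sin_sq]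
    have hcos : |Real.cos θ| ≤ 2 * C * ‖ψ‖ := by
      rw [← e0]
      refine (abs_add_le _ _).trans ?_
      rw [abs_mul, abs_mul]
      have m0 := mul_le_mul hn0 ha (abs_nonneg _) (norm_nonneg _)
      have m1 := mul_le_mul hn1 hb' (abs_nonneg _) (norm_nonneg _)
      linarith
    have hsin : |Real.sin θ| ≤ 2 * C * ‖ψ‖ := by
      rw [← e1]
      refine (abs_add_le _ _).trans ?_
      rw [abs_mul, abs_mul]
      have m0 := mul_le_mul hn0 hb (abs_nonneg _) (norm_nonneg _)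
      have m1 := mul_le_mul hn1 hd (abs_nonneg _) (norm_nonneg _)
      linarith
    have h9 : Real.cos θ ^ 2 ≤ |Real.cos θ| := by
      rw [← sq_abs, sq]
      exact mul_le_of_le_one_left (abs_nonneg _) (Real.abs_cos_le_one θ)
    have h10 : Real.sin θ ^ 2 ≤ |Real.sin θ| := by
      rw [← sq_abs, sq]
      exact mul_le_of_le_one_left (abs_nonneg _) (Real.abs_sin_le_one θ)
    linarith
  refine ⟨ψ, e0, e1, hn0.trans hup, hn1.trans hup, le_trans ?_ hq⟩
  apply mul_le_mul_of_nonneg_left _ hc.le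
  exact pow_le_pow_left₀ (by positivity) hlo 2

/-- geometry of an elliptic graph over a convex compact set -/
theorem geo {U K : Set (Fin 2 → ℝ)} (hU : IsOpen U) (hK : IsCompact K) (hconv : Convex ℝ K) (hKU : K ⊆ U)
    {h : (Fin 2 → ℝ) → ℝ} (hh : ContDiffOn ℝ 3 h U) {σ : ℝ} (hσ : σ = 1 ∨ σ = -1) {c : ℝ} (hc : 0 < c)
    (hell : ∀ x ∈ K, ∀ w, c * ‖w‖ ^ 2 ≤ σ * fderiv ℝ (fderiv ℝ h) x w w) :
    ∃ C : ℝ, 1 ≤ C ∧ (∀ x ∈ K, ∀ y ∈ K, ‖gd h y - gd h x‖ ≤ C * ‖y - x‖ ∧ ‖y - x‖ ≤ C * ‖gd h y - gd h x‖ ∧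
      |h y - h x - gd h x 0 * (y 0 - x 0) - gd h x 1 * (y 1 - x 1)| ≤ C * ‖y - x‖ ^ 2) ∧
      ∀ (θ : ℝ), ∀ x ∈ K, ∃ ψ : Fin 2 → ℝ, C⁻¹ ≤ σ * (Real.cos θ * ψ 0 + Real.sin θ * ψ 1) ∧ |ψ 0| ≤ C ∧ |ψ 1| ≤ C ∧
        ∀ y ∈ K, |Real.cos θ * (y 0 - x 0) + Real.sin θ * (y 1 - x 1) - ψ 0 * (gd h y 0 - gd h x 0) -
          ψ 1 * (gd h y 1 - gd h x 1)| ≤ C * ‖y - x‖ ^ 2 := by
  have hh2 : ContDiffOn ℝ 2 h U := hh.of_le (by norm_num)
  have hf1 : ContDiffOn ℝ 2 (fderiv ℝ h) U := hh.fderiv_of_isOpen hU (by norm_num)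
  obtain ⟨C0, hC0, H0⟩ := taylor1 hU hK hconv hKU hh2
  obtain ⟨C1, hC1, H1⟩ := taylor1 hU hK hconv hKU hf1
  have hsig : |σ| = 1 := by rcases hσ with rfl | rfl <;> simp
  have hmono : ∀ x ∈ K, ∀ y ∈ K, c * ‖y - x‖ ^ 2 ≤ σ * (fderiv ℝ h y - fderiv ℝ h x) (y - x) := by
    have hs2 : ContDiffOn ℝ 2 (fun z => σ * h z) U := contDiffOn_const.mul hh2
    have hfd : ∀ z ∈ U, fderiv ℝ (fun z => σ * h z) z = σ • fderiv ℝ h z := fun z hz =>
      fderiv_const_mul ((hh2.contDiffAt (hU.mem_nhds hz)).differentiableAt (by norm_num)) σ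
    have hfd2 : ∀ z ∈ U, fderiv ℝ (fderiv ℝ (fun z => σ * h z)) z = σ • fderiv ℝ (fderiv ℝ h) z := by
      intro z hz
      have e : fderiv ℝ (fun z => σ * h z) =ᶠ[nhds z] fun z => σ • fderiv ℝ h z :=
        Filter.eventually_of_mem (hU.mem_nhds hz) hfd
      rw [e.fderiv_eq]
      exact fderiv_const_smul ((hf1.contDiffAt (hU.mem_nhds hz)).differentiableAt (by norm_num)) σ
    intro x hx y hy
    have := mono1 hU hconv hKU hs2 (c := c) (fun z hz w => by
      rw [hfd2 z (hKU hz)]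
      simpa using hell z hz w) x hx y hy
    rw [hfd y (hKU hy), hfd x (hKU hx)] at this
    simpa [mul_sub] using this
  have hval : ∀ (L : (Fin 2 → ℝ) →L[ℝ] ℝ) (w : Fin 2 → ℝ), L w = w 0 * L (Pi.single 0 1) + w 1 * L (Pi.single 1 1) := by
    intro L w
    conv_lhs => rw [vec_eq w]
    simp
  have hgd : ∀ x ∈ K, ∀ y ∈ K, ‖gd h y - gd h x‖ ≤ C1 * ‖y - x‖ := by
    intro x hx y hy
    have key : ∀ i, |(gd h y - gd h x) i| ≤ C1 * ‖y - x‖ := by
      intro i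
      have e : (gd h y - gd h x) i = (fderiv ℝ h y - fderiv ℝ h x) (Pi.single i 1) := by simp [gd]
      rw [e]
      refine ((fderiv ℝ h y - fderiv ℝ h x).le_opNorm _).trans ?_
      rw [norm_single_one, mul_one]
      exact (H1 x hx y hy).2.2.1
    exact norm_le_of_coord _ (key 0) (key 1)
  have hlo : ∀ x ∈ K, ∀ y ∈ K, ‖y - x‖ ≤ 2 / c * ‖gd h y - gd h x‖ := by
    intro x hx y hy
    rcases (norm_nonneg (y - x)).eq_or_lt with h0 | h0
    · rw [← h0]; positivity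
    · have h1 := hmono x hx y hy
      rw [hval (fderiv ℝ h y - fderiv ℝ h x) (y - x)] at h1
      have e0 : (fderiv ℝ h y - fderiv ℝ h x) (Pi.single 0 1) = (gd h y - gd h x) 0 := by simp [gd]
      have e1 : (fderiv ℝ h y - fderiv ℝ h x) (Pi.single 1 1) = (gd h y - gd h x) 1 := by simp [gd]
      rw [e0, e1] at h1
      have h2 : σ * ((y - x) 0 * (gd h y - gd h x) 0 + (y - x) 1 * (gd h y - gd h x) 1) ≤
          2 * ‖y - x‖ * ‖gd h y - gd h x‖ := by
        refine (le_abs_self _).trans ?_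
        rw [abs_mul, hsig, one_mul]
        refine (abs_add_le _ _).trans ?_
        rw [abs_mul, abs_mul]
        have a0 := abs_coord_le (y - x) 0
        have a1 := abs_coord_le (y - x) 1
        have b0 := abs_coord_le (gd h y - gd h x) 0
        have b1 := abs_coord_le (gd h y - gd h x) 1
        have m0 := mul_le_mul a0 b0 (abs_nonneg _) (norm_nonneg _)
        have m1 := mul_le_mul a1 b1 (abs_nonneg _) (norm_nonneg _)
        linarith
      have h3 : c * ‖y - x‖ ≤ 2 * ‖gd h y - gd h x‖ := by nlinarith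
      rw [div_mul_eq_mul_div, le_div_iff₀ hc]
      linarith
  set C2 : ℝ := C1 + 1 with hC2
  have hC2p : 0 < C2 := by positivity
  refine ⟨max 1 (max (max C0 C1) (max (2 / c) (max ((c * (1 / (4 * C2)) ^ 2)⁻¹) (4 / c * C1)))), le_max_left _ _,
    fun x hx y hy => ⟨?_, ?_, ?_⟩, fun θ x hx => ?_⟩
  · refine (hgd x hx y hy).trans (mul_le_mul_of_nonneg_right ?_ (norm_nonneg _))
    exact (le_max_right C0 C1).trans ((le_max_left _ _).trans (le_max_right _ _))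
  · refine (hlo x hx y hy).trans (mul_le_mul_of_nonneg_right ?_ (norm_nonneg _))
    exact (le_max_left _ _).trans ((le_max_right _ _).trans (le_max_right _ _))
  · have h1 := (H0 x hx y hy).1
    rw [hval (fderiv ℝ h x) (y - x)] at h1
    have e : h y - h x - gd h x 0 * (y 0 - x 0) - gd h x 1 * (y 1 - x 1) =
        h y - h x - ((y - x) 0 * fderiv ℝ h x (Pi.single 0 1) + (y - x) 1 * fderiv ℝ h x (Pi.single 1 1)) := by
      simp only [gd, Pi.sub_apply]; ring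
    rw [e, ← Real.norm_eq_abs]
    refine h1.trans (mul_le_mul_of_nonneg_right ?_ (by positivity))
    exact (le_max_left C0 C1).trans ((le_max_left _ _).trans (le_max_right _ _))
  · have hb : ∀ i j : Fin 2, |fderiv ℝ (fderiv ℝ h) x (Pi.single j 1) (Pi.single i 1)| ≤ C2 := by
      intro i j
      rw [← Real.norm_eq_abs]
      refine ((fderiv ℝ (fderiv ℝ h) x (Pi.single j 1)).le_opNorm _).trans ?_
      rw [norm_single_one, mul_one]
      refine ((fderiv ℝ (fderiv ℝ h) x).le_opNorm _).trans ?_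
      rw [norm_single_one, mul_one]
      have := (H1 x hx x hx).2.2.2
      linarith
    have hval2 : ∀ w v : Fin 2 → ℝ, fderiv ℝ (fderiv ℝ h) x w v =
        v 0 * (w 0 * fderiv ℝ (fderiv ℝ h) x (Pi.single 0 1) (Pi.single 0 1) + w 1 * fderiv ℝ (fderiv ℝ h) x (Pi.single 1 1) (Pi.single 0 1)) +
        v 1 * (w 0 * fderiv ℝ (fderiv ℝ h) x (Pi.single 0 1) (Pi.single 1 1) + w 1 * fderiv ℝ (fderiv ℝ h) x (Pi.single 1 1) (Pi.single 1 1)) := by
      intro w v
      rw [hval (fderiv ℝ (fderiv ℝ h) x w) v]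
      conv_lhs => rw [vec_eq w]
      simp
    obtain ⟨ψ, e0, e1, n0, n1, hpos⟩ := exists_psi (a := fderiv ℝ (fderiv ℝ h) x (Pi.single 0 1) (Pi.single 0 1))
      (b := fderiv ℝ (fderiv ℝ h) x (Pi.single 1 1) (Pi.single 0 1)) (b' := fderiv ℝ (fderiv ℝ h) x (Pi.single 0 1) (Pi.single 1 1))
      (d := fderiv ℝ (fderiv ℝ h) x (Pi.single 1 1) (Pi.single 1 1)) (c := c) (C := C2) hσ hc hC2p
      (fun w => by
        refine (hell x hx w).trans (le_of_eq ?_)
        rw [hval2 w w]; ring) (hb 0 0) (hb 0 1) (hb 1 0) (hb 1 1) θ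
    refine ⟨ψ, ?_, n0.trans ?_, n1.trans ?_, fun y hy => ?_⟩
    · refine le_trans ?_ hpos
      have hp : 0 < c * (1 / (4 * C2)) ^ 2 := by positivity
      refine inv_le_of_inv_le₀ hp ?_
      exact (le_max_left _ _).trans ((le_max_right _ _).trans ((le_max_right _ _).trans (le_max_right _ _)))
    · exact (le_max_left _ _).trans ((le_max_right _ _).trans (le_max_right _ _))
    · exact (le_max_left _ _).trans ((le_max_right _ _).trans (le_max_right _ _))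
    · have h1 := (H1 x hx y hy).1
      set D : (Fin 2 → ℝ) →L[ℝ] ℝ := fderiv ℝ h y - fderiv ℝ h x - fderiv ℝ (fderiv ℝ h) x (y - x) with hD
      have hDi : ∀ i, |D (Pi.single i 1)| ≤ C1 * ‖y - x‖ ^ 2 := by
        intro i
        rw [← Real.norm_eq_abs]
        refine (D.le_opNorm _).trans ?_
        rw [norm_single_one, mul_one]
        exact h1
      have hDe : ∀ i, D (Pi.single i 1) = gd h y i - gd h x i - ((y 0 - x 0) * fderiv ℝ (fderiv ℝ h) x (Pi.single 0 1) (Pi.single i 1) +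
          (y 1 - x 1) * fderiv ℝ (fderiv ℝ h) x (Pi.single 1 1) (Pi.single i 1)) := by
        intro i
        simp only [hD, gd, sub_apply]
        congr 1
        conv_lhs => rw [vec_eq (y - x)]
        simp
      have e : Real.cos θ * (y 0 - x 0) + Real.sin θ * (y 1 - x 1) - ψ 0 * (gd h y 0 - gd h x 0) -
          ψ 1 * (gd h y 1 - gd h x 1) = -(ψ 0 * D (Pi.single 0 1)) - ψ 1 * D (Pi.single 1 1) := by
        rw [hDe 0, hDe 1, ← e0, ← e1]; ring
      rw [e]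
      have h2 : |-(ψ 0 * D (Pi.single 0 1)) - ψ 1 * D (Pi.single 1 1)| ≤ 2 / c * (C1 * ‖y - x‖ ^ 2) + 2 / c * (C1 * ‖y - x‖ ^ 2) := by
        refine (abs_sub _ _).trans ?_
        rw [abs_neg, abs_mul, abs_mul]
        exact add_le_add (mul_le_mul n0 (hDi 0) (abs_nonneg _) (by positivity)) (mul_le_mul n1 (hDi 1) (abs_nonneg _) (by positivity))
      refine h2.trans ?_
      have e3 : 2 / c * (C1 * ‖y - x‖ ^ 2) + 2 / c * (C1 * ‖y - x‖ ^ 2) = 4 / c * C1 * ‖y - x‖ ^ 2 := by ring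
      rw [e3]
      refine mul_le_mul_of_nonneg_right ?_ (by positivity)
      exact (le_max_right _ _).trans ((le_max_right _ _).trans ((le_max_right _ _).trans (le_max_right _ _)))

end Vale.Agent.P122.S590
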