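import Vale.Agent.P122.AN.Defs
import Vale.Agent.P122.S590.G2

/-! # P122 / S590 : elliptic graphs and the sphere are surfaces in the sense of `AN.Srf` -/

open Set Vale.Agent.P122.C2 Vale.Agent.P122.AN
open scoped ContDiff

set_option autoImplicit false

namespace Vale.Agent.P122.S590

/-- an elliptic graph, sheared by `s` -/
theorem srf_graph {U K : Set (Fin 2 → ℝ)} (hU : IsOpen U) (hK : IsCompact K) (hconv : Convex ℝ K) (hKU : K ⊆ U)
    {h : (Fin 2 → ℝ) → ℝ} (hh : ContDiffOn ℝ 3 h U) {σ : ℝ} (hσ : σ = 1 ∨ σ = -1) {c : ℝ} (hc : 0 < c)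
    (hell : ∀ x ∈ K, ∀ w, c * ‖w‖ ^ 2 ≤ σ * fderiv ℝ (fderiv ℝ h) x w w) :
    ∃ C : ℝ, 1 ≤ C ∧ ∀ s : Fin 2 → ℝ, Srf C K (fun x => h x - s 0 * x 0 - s 1 * x 1) (fun x i => s i - gd h x i) := by
  obtain ⟨C, hC, H, P⟩ := geo hU hK hconv hKU hh hσ hc hell
  refine ⟨C, hC, fun s => ⟨?_, ?_, ?_, ?_⟩⟩
  · intro ξ hξ η hη
    have h1 := (H ξ hξ η hη).1
    have e : (fun i => s i - gd h ξ i) - (fun i => s i - gd h η i) = gd h η - gd h ξ := by
      ext i; simp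
    rw [e, norm_sub_rev ξ η]
    exact h1
  · intro ξ hξ η hη
    have h1 := (H ξ hξ η hη).2.1
    have e : (fun i => s i - gd h ξ i) - (fun i => s i - gd h η i) = gd h η - gd h ξ := by
      ext i; simp
    rw [e, norm_sub_rev ξ η]
    exact h1
  · intro ξ hξ η hη
    have h1 := (H η hη ξ hξ).2.2
    have e : h ξ - s 0 * ξ 0 - s 1 * ξ 1 - (h η - s 0 * η 0 - s 1 * η 1) + (s 0 - gd h η 0) * (ξ 0 - η 0) +
        (s 1 - gd h η 1) * (ξ 1 - η 1) = h ξ - h η - gd h η 0 * (ξ 0 - η 0) - gd h η 1 * (ξ 1 - η 1) := by ring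
    rw [e]
    exact h1
  · intro θ η hη
    obtain ⟨ψ, p0, p1, p2, p3⟩ := P θ η hη
    refine ⟨ψ, ?_, p1, p2, fun ξ hξ => ?_⟩
    · refine p0.trans ?_
      unfold fw
      have a1 := le_abs_self (Real.cos θ * ψ 0 + Real.sin θ * ψ 1)
      have a2 := neg_le_abs (Real.cos θ * ψ 0 + Real.sin θ * ψ 1)
      rcases hσ with rfl | rfl
      · linarith
      · linarith
    · have h1 := p3 ξ hξ
      have e : fw θ (fun i => ξ i - η i) + ψ 0 * (s 0 - gd h ξ 0 - (s 0 - gd h η 0)) +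
          ψ 1 * (s 1 - gd h ξ 1 - (s 1 - gd h η 1)) = Real.cos θ * (ξ 0 - η 0) + Real.sin θ * (ξ 1 - η 1) -
          ψ 0 * (gd h ξ 0 - gd h η 0) - ψ 1 * (gd h ξ 1 - gd h η 1) := by
        unfold fw; ring
      rw [e]
      exact h1

/-! ## the sphere -/

/-- the upper half sphere -/
noncomputable def hS (y : Fin 2 → ℝ) : ℝ := Real.sqrt (1 - y 0 ^ 2 - y 1 ^ 2)

def US : Set (Fin 2 → ℝ) := {y | 0 < 1 - y 0 ^ 2 - y 1 ^ 2}

theorem US_open : IsOpen US := by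
  unfold US
  exact isOpen_lt continuous_const (by fun_prop)

/-- the derivative of the height -/
theorem hasFDerivAt_hS {y : Fin 2 → ℝ} (hy : y ∈ US) :
    HasFDerivAt hS (-(hS y)⁻¹ • (y 0 • (ContinuousLinearMap.proj 0 : (Fin 2 → ℝ) →L[ℝ] ℝ) +
      y 1 • (ContinuousLinearMap.proj 1 : (Fin 2 → ℝ) →L[ℝ] ℝ))) y := by
  have h0 : HasFDerivAt (fun z : Fin 2 → ℝ => z 0) (ContinuousLinearMap.proj 0 : (Fin 2 → ℝ) →L[ℝ] ℝ) y :=
    (ContinuousLinearMap.proj (R := ℝ) (φ := fun _ : Fin 2 => ℝ) 0).hasFDerivAt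
  have h1 : HasFDerivAt (fun z : Fin 2 → ℝ => z 1) (ContinuousLinearMap.proj 1 : (Fin 2 → ℝ) →L[ℝ] ℝ) y :=
    (ContinuousLinearMap.proj (R := ℝ) (φ := fun _ : Fin 2 => ℝ) 1).hasFDerivAt
  have hN := ((hasFDerivAt_const (1:ℝ) y).sub (h0.pow 2)).sub (h1.pow 2)
  have hs := hN.sqrt (ne_of_gt hy)
  refine hs.congr_fderiv ?_
  ext w
  have hp : 0 < Real.sqrt (1 - y 0 ^ 2 - y 1 ^ 2) := Real.sqrt_pos.2 hy
  simp [hS]
  field_simp
  ring

theorem fderiv_hS {y : Fin 2 → ℝ} (hy : y ∈ US) (w : Fin 2 → ℝ) :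
    fderiv ℝ hS y w = -(y 0 * w 0 + y 1 * w 1) / hS y := by
  rw [(hasFDerivAt_hS hy).fderiv]
  simp
  ring

theorem contDiffOn_hS : ContDiffOn ℝ 3 hS US := by
  intro y hy
  apply ContDiffAt.contDiffWithinAt
  apply ContDiffAt.sqrt
  · have : ContDiff ℝ 3 (fun y : Fin 2 → ℝ => 1 - y 0 ^ 2 - y 1 ^ 2) := by fun_prop
    exact this.contDiffAt
  · exact ne_of_gt hy

theorem hess_hS {x : Fin 2 → ℝ} (hx : x ∈ US) (w : Fin 2 → ℝ) :
    fderiv ℝ (fderiv ℝ hS) x w w = -(w 0 ^ 2 + w 1 ^ 2) / hS x - (x 0 * w 0 + x 1 * w 1) ^ 2 / hS x ^ 3 := by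
  have hf1 : ContDiffOn ℝ 2 (fderiv ℝ hS) US := contDiffOn_hS.fderiv_of_isOpen US_open (by norm_num)
  have hder : HasDerivAt (fun t : ℝ => fderiv ℝ hS (x + t • w) w) (fderiv ℝ (fderiv ℝ hS) x w w) 0 := by
    have h1 : HasFDerivAt (fderiv ℝ hS) (fderiv ℝ (fderiv ℝ hS) (x + (0:ℝ) • w)) (x + (0:ℝ) • w) := by
      rw [zero_smul, add_zero]
      exact ((hf1.contDiffAt (US_open.mem_nhds hx)).differentiableAt (by norm_num)).hasFDerivAt
    have h2 : HasDerivAt (fun t : ℝ => x + t • w) w 0 := by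
      simpa using ((hasDerivAt_id (0:ℝ)).smul_const w).const_add x
    have h3 := h1.comp_hasDerivAt (0:ℝ) h2
    have h4 := h3.clm_apply (hasDerivAt_const (0:ℝ) w)
    simpa using h4
  set A := x 0 * w 0 + x 1 * w 1 with hA
  set B := w 0 ^ 2 + w 1 ^ 2 with hB
  have hN : 0 < 1 - x 0 ^ 2 - x 1 ^ 2 := hx
  have hp : 0 < hS x := Real.sqrt_pos.2 hx
  have hder2 : HasDerivAt (fun t : ℝ => -(A + t * B) / Real.sqrt ((1 - x 0 ^ 2 - x 1 ^ 2) - 2 * t * A - t ^ 2 * B))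
      (-B / hS x - A ^ 2 / hS x ^ 3) 0 := by
    have hn : HasDerivAt (fun t : ℝ => -(A + t * B)) (-B) 0 := by
      simpa using (((hasDerivAt_id (0:ℝ)).mul_const B).const_add A).fun_neg
    have hd : HasDerivAt (fun t : ℝ => (1 - x 0 ^ 2 - x 1 ^ 2) - 2 * t * A - t ^ 2 * B) (-(2 * A)) 0 := by
      have a1 : HasDerivAt (fun t : ℝ => 2 * t * A) (2 * A) 0 := by
        simpa using ((hasDerivAt_id (0:ℝ)).const_mul 2).mul_const A
      have a2 : HasDerivAt (fun t : ℝ => t ^ 2 * B) 0 0 := by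
        simpa using ((hasDerivAt_id (0:ℝ)).pow 2).mul_const B
      simpa using (a1.const_sub (1 - x 0 ^ 2 - x 1 ^ 2)).fun_sub a2
    have hs := hd.sqrt (by simpa using hN.ne')
    have hq := hn.fun_div hs (by simpa using (Real.sqrt_pos.2 hN).ne')
    refine hq.congr_deriv ?_
    simp only [hS] at hp ⊢
    simp
    field_simp
    ring
  have heq : (fun t : ℝ => fderiv ℝ hS (x + t • w) w) =ᶠ[nhds 0]
      fun t : ℝ => -(A + t * B) / Real.sqrt ((1 - x 0 ^ 2 - x 1 ^ 2) - 2 * t * A - t ^ 2 * B) := by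
    have hcont : ContinuousAt (fun t : ℝ => x + t • w) 0 := by fun_prop
    have hmem : ∀ᶠ t : ℝ in nhds 0, x + t • w ∈ US := by
      apply hcont.eventually_mem
      simpa using US_open.mem_nhds hx
    filter_upwards [hmem] with t ht
    rw [fderiv_hS ht]
    simp only [hS, Pi.add_apply, Pi.smul_apply, smul_eq_mul]
    congr 1
    · rw [hA, hB]; ring
    · congr 1
      rw [hA, hB]; ring
  exact hder.unique (hder2.congr_of_eventuallyEq heq)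

/-- the square around `(4/9, 4/9)` -/
def QS : Set (Fin 2 → ℝ) := {y | ∀ i, |y i - 4 / 9| ≤ 1 / 50}

theorem QS_eq : QS = Metric.closedBall (fun _ : Fin 2 => (4 / 9 : ℝ)) (1 / 50) := by
  ext y
  rw [Metric.mem_closedBall, dist_pi_le_iff (by norm_num)]
  simp [QS, Real.dist_eq]

theorem QS_US : QS ⊆ US := by
  intro y hy
  have h0 := abs_le.1 (hy 0)
  have h1 := abs_le.1 (hy 1)
  show 0 < 1 - y 0 ^ 2 - y 1 ^ 2
  nlinarith

theorem gd_hS {y : Fin 2 → ℝ} (hy : y ∈ US) (i : Fin 2) : gd hS y i = -(y i / hS y) := by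
  unfold gd
  rw [fderiv_hS hy]
  fin_cases i <;> simp [neg_div]

theorem Srf.congr {C : ℝ} {Q : Set (Fin 2 → ℝ)} {h h' : (Fin 2 → ℝ) → ℝ} {v v' : (Fin 2 → ℝ) → Fin 2 → ℝ}
    (H : Srf C Q h v) (e : ∀ x ∈ Q, h' x = h x) (e' : ∀ x ∈ Q, v' x = v x) : Srf C Q h' v' := by
  refine ⟨fun ξ hξ η hη => ?_, fun ξ hξ η hη => ?_, fun ξ hξ η hη => ?_, fun θ η hη => ?_⟩
  · rw [e' ξ hξ, e' η hη]; exact H.up ξ hξ η hη
  · rw [e' ξ hξ, e' η hη]; exact H.lo ξ hξ η hη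
  · rw [e' η hη, e ξ hξ, e η hη]; exact H.tay ξ hξ η hη
  · obtain ⟨ψ, p0, p1, p2, p3⟩ := H.col θ η hη
    refine ⟨ψ, p0, p1, p2, fun ξ hξ => ?_⟩
    rw [e' ξ hξ, e' η hη]; exact p3 ξ hξ

/-- the sphere near `(4/9, 4/9, 7/9)` -/
theorem srf_sphere : ∃ C : ℝ, 1 ≤ C ∧ Srf C QS hS (fun y i => y i / hS y) := by
  have hK : IsCompact QS := by rw [QS_eq]; exact isCompact_closedBall _ _
  have hc : Convex ℝ QS := by rw [QS_eq]; exact convex_closedBall _ _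
  obtain ⟨C, hC, H⟩ := srf_graph US_open hK hc QS_US contDiffOn_hS (σ := -1) (Or.inr rfl) (c := 1) one_pos (fun x hx w => by
    have hxU := QS_US hx
    rw [hess_hS hxU]
    have hp : 0 < hS x := Real.sqrt_pos.2 hxU
    have h1 : hS x ≤ 1 := by
      unfold hS
      rw [Real.sqrt_le_left zero_le_one]
      nlinarith [sq_nonneg (x 0), sq_nonneg (x 1)]
    have hw : ‖w‖ ^ 2 ≤ w 0 ^ 2 + w 1 ^ 2 := by
      have hn : ‖w‖ ≤ Real.sqrt (w 0 ^ 2 + w 1 ^ 2) := by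
        apply norm_le_of_coord
        · exact Real.abs_le_sqrt (by nlinarith [sq_nonneg (w 1)])
        · exact Real.abs_le_sqrt (by nlinarith [sq_nonneg (w 0)])
      calc ‖w‖ ^ 2 ≤ Real.sqrt (w 0 ^ 2 + w 1 ^ 2) ^ 2 := pow_le_pow_left₀ (norm_nonneg _) hn 2
        _ = _ := Real.sq_sqrt (by positivity)
    have h2 : w 0 ^ 2 + w 1 ^ 2 ≤ (w 0 ^ 2 + w 1 ^ 2) / hS x := by
      rw [le_div_iff₀ hp]
      exact mul_le_of_le_one_right (by positivity) h1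
    have h3 : 0 ≤ (x 0 * w 0 + x 1 * w 1) ^ 2 / hS x ^ 3 := by positivity
    have e : -1 * (-(w 0 ^ 2 + w 1 ^ 2) / hS x - (x 0 * w 0 + x 1 * w 1) ^ 2 / hS x ^ 3) =
        (w 0 ^ 2 + w 1 ^ 2) / hS x + (x 0 * w 0 + x 1 * w 1) ^ 2 / hS x ^ 3 := by ring
    rw [e]; linarith)
  refine ⟨C, hC, Srf.congr (H 0) (fun x _ => by simp) (fun x hx => ?_)⟩
  ext i
  rw [gd_hS (QS_US hx)]
  simp

end Vale.Agent.P122.S590
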