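import Mathlib

/-! # P122 / S590 : Taylor estimates on convex compact sets -/

open Set
open scoped ContDiff

set_option autoImplicit false

namespace Vale.Agent.P122.S590

/-- first order Taylor estimate on a convex compact set -/
theorem taylor1 {E F : Type*} [NormedAddCommGroup E] [NormedSpace ℝ E] [NormedAddCommGroup F] [NormedSpace ℝ F]
    {U K : Set E} (hU : IsOpen U) (hK : IsCompact K) (hc : Convex ℝ K) (hKU : K ⊆ U) {f : E → F}
    (hf : ContDiffOn ℝ 2 f U) :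
    ∃ C : ℝ, 0 ≤ C ∧ ∀ x ∈ K, ∀ y ∈ K, ‖f y - f x - fderiv ℝ f x (y - x)‖ ≤ C * ‖y - x‖ ^ 2 ∧
      ‖fderiv ℝ f y - fderiv ℝ f x‖ ≤ C * ‖y - x‖ ∧ ‖f y - f x‖ ≤ C * ‖y - x‖ ∧ ‖fderiv ℝ f x‖ ≤ C := by
  have hf1 : ContDiffOn ℝ 1 (fderiv ℝ f) U := hf.fderiv_of_isOpen hU (by norm_num)
  have hn1 : ContinuousOn (fun x => ‖fderiv ℝ (fderiv ℝ f) x‖) K :=
    ((hf1.fderiv_of_isOpen (m := 0) hU (by norm_num)).continuousOn.norm).mono hKU
  have hn0 : ContinuousOn (fun x => ‖fderiv ℝ f x‖) K := hf1.continuousOn.norm.mono hKU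
  obtain ⟨C1, hC1'⟩ := hK.bddAbove_image hn1
  obtain ⟨C0, hC0'⟩ := hK.bddAbove_image hn0
  have hC1 : ∀ x ∈ K, ‖fderiv ℝ (fderiv ℝ f) x‖ ≤ C1 := fun x hx => hC1' (mem_image_of_mem _ hx)
  have hC0 : ∀ x ∈ K, ‖fderiv ℝ f x‖ ≤ C0 := fun x hx => hC0' (mem_image_of_mem _ hx)
  have hd1 : ∀ x ∈ U, DifferentiableAt ℝ (fderiv ℝ f) x := fun x hx =>
    (hf1.contDiffAt (hU.mem_nhds hx)).differentiableAt (by norm_num)
  have hd0 : ∀ x ∈ U, DifferentiableAt ℝ f x := fun x hx =>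
    (hf.contDiffAt (hU.mem_nhds hx)).differentiableAt (by norm_num)
  have hL1 : ∀ x ∈ K, ∀ y ∈ K, ‖fderiv ℝ f y - fderiv ℝ f x‖ ≤ C1 * ‖y - x‖ := fun x hx y hy =>
    Convex.norm_image_sub_le_of_norm_fderiv_le (fun z hz => hd1 z (hKU hz)) hC1 hc hx hy
  have hL0 : ∀ x ∈ K, ∀ y ∈ K, ‖f y - f x‖ ≤ C0 * ‖y - x‖ := fun x hx y hy =>
    Convex.norm_image_sub_le_of_norm_fderiv_le (fun z hz => hd0 z (hKU hz)) hC0 hc hx hy
  refine ⟨max 0 (max C0 C1), le_max_left _ _, fun x hx y hy => ⟨?_, ?_, ?_, ?_⟩⟩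
  · have hseg : segment ℝ x y ⊆ K := hc.segment_subset hx hy
    have h1 : ‖f y - f x - fderiv ℝ f x (y - x)‖ ≤ (max 0 (max C0 C1) * ‖y - x‖) * ‖y - x‖ := by
      refine Convex.norm_image_sub_le_of_norm_hasFDerivWithin_le' (s := segment ℝ x y)
        (f' := fun z => fderiv ℝ f z) (fun z hz => ((hd0 z (hKU (hseg hz))).hasFDerivAt).hasFDerivWithinAt) ?_
        (convex_segment x y) (left_mem_segment ℝ x y) (right_mem_segment ℝ x y)
      intro z hz
      refine (hL1 x hx z (hseg hz)).trans ?_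
      have hz' : ‖z - x‖ ≤ ‖y - x‖ := by
        obtain ⟨t, ht, rfl⟩ := (segment_eq_image' ℝ x y ▸ hz)
        simp only [add_sub_cancel_left, norm_smul, Real.norm_eq_abs, abs_of_nonneg ht.1]
        exact mul_le_of_le_one_left (norm_nonneg _) ht.2
      exact mul_le_mul ((le_max_right C0 C1).trans (le_max_right _ _)) hz' (norm_nonneg _) (le_max_left _ _)
    calc _ ≤ _ := h1
      _ = _ := by ring
  · exact (hL1 x hx y hy).trans (mul_le_mul_of_nonneg_right ((le_max_right _ _).trans (le_max_right _ _)) (norm_nonneg _))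
  · exact (hL0 x hx y hy).trans (mul_le_mul_of_nonneg_right ((le_max_left _ _).trans (le_max_right _ _)) (norm_nonneg _))
  · exact (hC0 x hx).trans ((le_max_left _ _).trans (le_max_right _ _))

/-- strong monotonicity of the gradient of an elliptic function on a convex set -/
theorem mono1 {E : Type*} [NormedAddCommGroup E] [NormedSpace ℝ E]
    {U K : Set E} (hU : IsOpen U) (hc : Convex ℝ K) (hKU : K ⊆ U) {f : E → ℝ}
    (hf : ContDiffOn ℝ 2 f U) {c : ℝ} (hell : ∀ x ∈ K, ∀ w : E, c * ‖w‖ ^ 2 ≤ fderiv ℝ (fderiv ℝ f) x w w) :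
    ∀ x ∈ K, ∀ y ∈ K, c * ‖y - x‖ ^ 2 ≤ (fderiv ℝ f y - fderiv ℝ f x) (y - x) := by
  intro x hx y hy
  have hf1 : ContDiffOn ℝ 1 (fderiv ℝ f) U := hf.fderiv_of_isOpen hU (by norm_num)
  have hseg : ∀ t ∈ Icc (0:ℝ) 1, x + t • (y - x) ∈ K := fun t ht => by
    have := hc.segment_subset hx hy
    apply this
    rw [segment_eq_image']
    exact ⟨t, ht, rfl⟩
  have hder : ∀ t ∈ Icc (0:ℝ) 1, HasDerivAt (fun t : ℝ => fderiv ℝ f (x + t • (y - x)) (y - x))
      (fderiv ℝ (fderiv ℝ f) (x + t • (y - x)) (y - x) (y - x)) t := by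
    intro t ht
    have h1 : HasFDerivAt (fderiv ℝ f) (fderiv ℝ (fderiv ℝ f) (x + t • (y - x))) (x + t • (y - x)) :=
      ((hf1.contDiffAt (hU.mem_nhds (hKU (hseg t ht)))).differentiableAt (by norm_num)).hasFDerivAt
    have h2 : HasDerivAt (fun t : ℝ => x + t • (y - x)) (y - x) t := by
      simpa using ((hasDerivAt_id t).smul_const (y - x)).const_add x
    have h3 := h1.comp_hasDerivAt t h2
    have h4 := h3.clm_apply (hasDerivAt_const t (y - x))
    simpa using h4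
  obtain ⟨t, ht, hs⟩ := exists_hasDerivAt_eq_slope (fun t : ℝ => fderiv ℝ f (x + t • (y - x)) (y - x))
    (fun t => fderiv ℝ (fderiv ℝ f) (x + t • (y - x)) (y - x) (y - x)) (by norm_num : (0:ℝ) < 1)
    (fun t ht => (hder t ht).continuousAt.continuousWithinAt) (fun t ht => hder t (Ioo_subset_Icc_self ht))
  have h5 := hell _ (hseg t (Ioo_subset_Icc_self ht)) (y - x)
  rw [hs] at h5
  simpa using h5

end Vale.Agent.P122.S590
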